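import Vale.Agent.P049.TS.Mat.Basic

/-!
Spectral representation of one and of two real symmetric matrices, trace inequalities.

* `exists_spectral`: `(A^k) x y = ∑ i, a i ^ k * u i x * u i y`;
* `exists_joint_spectral`: `tr (A^k B^l) = ∑ i, ∑ j, p i j * (a i ^ k * b j ^ l)` with `p` doubly
  stochastic;
* monotone trace inequalities;
* `LoB Y μ`: `Y + μ ≥ 0` as a quadratic form, and its consequences;
* inequalities for `W = frob (A * B)`.
-/

set_option linter.unusedSectionVars false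

namespace Vale.Agent.P049.TS.Mat

open Matrix Finset

variable {ι : Type*} [Fintype ι] [DecidableEq ι]

/-- diagonalisation of a real symmetric matrix -/
theorem exists_diag {A : Matrix ι ι ℝ} (hA : A.IsSymm) :
    ∃ (U : Matrix ι ι ℝ) (a : ι → ℝ), Uᵀ * U = 1 ∧ U * Uᵀ = 1 ∧
      A = U * Matrix.diagonal a * Uᵀ := by
  have hA' : A.IsHermitian := by
    unfold Matrix.IsHermitian
    rw [Matrix.conjTranspose_eq_transpose_of_trivial]
    exact hA
  refine ⟨(hA'.eigenvectorUnitary : Matrix ι ι ℝ), hA'.eigenvalues, ?_, ?_, ?_⟩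
  · have := Unitary.coe_star_mul_self hA'.eigenvectorUnitary
    rwa [Matrix.star_eq_conjTranspose, Matrix.conjTranspose_eq_transpose_of_trivial] at this
  · have := Unitary.coe_mul_star_self hA'.eigenvectorUnitary
    rwa [Unitary.coe_star, Matrix.star_eq_conjTranspose,
      Matrix.conjTranspose_eq_transpose_of_trivial] at this
  · have := hA'.spectral_theorem
    rw [Unitary.conjStarAlgAut_apply, Matrix.star_eq_conjTranspose,
      Matrix.conjTranspose_eq_transpose_of_trivial] at this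
    exact this

theorem pow_diag_conj {U : Matrix ι ι ℝ} (a : ι → ℝ) (hU : Uᵀ * U = 1) (hU' : U * Uᵀ = 1) (k : ℕ) :
    (U * Matrix.diagonal a * Uᵀ) ^ k = U * Matrix.diagonal (fun i => a i ^ k) * Uᵀ := by
  induction k with
  | zero => simp [hU']
  | succ k ih =>
    rw [pow_succ, ih]
    have e : U * Matrix.diagonal (fun i => a i ^ k) * Uᵀ * (U * Matrix.diagonal a * Uᵀ)
        = U * Matrix.diagonal (fun i => a i ^ k) * (Uᵀ * U) * Matrix.diagonal a * Uᵀ := by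
      simp only [Matrix.mul_assoc]
    rw [e, hU, Matrix.mul_one, Matrix.mul_assoc U, Matrix.diagonal_mul_diagonal]
    simp only [pow_succ]

/-- spectral representation of the entries of the powers of a real symmetric matrix -/
theorem exists_spectral {A : Matrix ι ι ℝ} (hA : A.IsSymm) :
    ∃ (u : ι → ι → ℝ) (a : ι → ℝ), ∀ (k : ℕ) (x y : ι), (A ^ k) x y = ∑ i, a i ^ k * (u i x * u i y) := by
  obtain ⟨U, a, hU, hU', h⟩ := exists_diag hA
  refine ⟨fun i x => U x i, a, fun k x y => ?_⟩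
  rw [h, pow_diag_conj a hU hU', Matrix.mul_apply]
  refine Finset.sum_congr rfl fun i _ => ?_
  rw [Matrix.mul_diagonal, Matrix.transpose_apply]
  ring

/-- joint spectral representation of the traces `tr (A^k B^l)` -/
theorem exists_joint_spectral {A B : Matrix ι ι ℝ} (hA : A.IsSymm) (hB : B.IsSymm) :
    ∃ (a b : ι → ℝ) (p : ι → ι → ℝ), (∀ i j, 0 ≤ p i j) ∧ (∀ i, ∑ j, p i j = 1) ∧
      (∀ j, ∑ i, p i j = 1) ∧
      ∀ k l : ℕ, (A ^ k * B ^ l).trace = ∑ i, ∑ j, p i j * (a i ^ k * b j ^ l) := by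
  obtain ⟨U, a, hU, hU', h⟩ := exists_diag hA
  obtain ⟨V, b, hV, hV', h'⟩ := exists_diag hB
  set P : Matrix ι ι ℝ := Uᵀ * V with hP
  have hPP : P * Pᵀ = 1 := by
    rw [hP, Matrix.transpose_mul, Matrix.transpose_transpose]
    calc Uᵀ * V * (Vᵀ * U) = Uᵀ * (V * Vᵀ) * U := by simp only [Matrix.mul_assoc]
      _ = 1 := by rw [hV', Matrix.mul_one, hU]
  have hPP' : Pᵀ * P = 1 := by
    rw [hP, Matrix.transpose_mul, Matrix.transpose_transpose]
    calc Vᵀ * U * (Uᵀ * V) = Vᵀ * (U * Uᵀ) * V := by simp only [Matrix.mul_assoc]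
      _ = 1 := by rw [hU', Matrix.mul_one, hV]
  refine ⟨a, b, fun i j => P i j ^ 2, fun i j => sq_nonneg _, fun i => ?_, fun j => ?_,
    fun k l => ?_⟩
  · have := congrFun (congrFun hPP i) i
    rw [Matrix.mul_apply, Matrix.one_apply_eq] at this
    rw [← this]
    exact Finset.sum_congr rfl fun j _ => by rw [Matrix.transpose_apply]; exact sq _
  · have := congrFun (congrFun hPP' j) j
    rw [Matrix.mul_apply, Matrix.one_apply_eq] at this
    rw [← this]
    exact Finset.sum_congr rfl fun i _ => by rw [Matrix.transpose_apply]; exact sq _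
  · rw [h, h', pow_diag_conj a hU hU', pow_diag_conj b hV hV']
    have e : (U * Matrix.diagonal (fun i => a i ^ k) * Uᵀ * (V * Matrix.diagonal (fun i => b i ^ l)
        * Vᵀ)).trace = (Matrix.diagonal (fun i => a i ^ k) * P * Matrix.diagonal (fun i => b i ^ l)
        * Pᵀ).trace := by
      have e1 : U * Matrix.diagonal (fun i => a i ^ k) * Uᵀ * (V * Matrix.diagonal
          (fun i => b i ^ l) * Vᵀ) = U * (Matrix.diagonal (fun i => a i ^ k) * (Uᵀ * V) *
          Matrix.diagonal (fun i => b i ^ l) * Vᵀ) := by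
        simp only [Matrix.mul_assoc]
      rw [e1, Matrix.trace_mul_comm, hP, Matrix.transpose_mul, Matrix.transpose_transpose]
      simp only [Matrix.mul_assoc]
    rw [e]
    simp only [Matrix.trace, Matrix.diag_apply]
    refine Finset.sum_congr rfl fun i _ => ?_
    rw [Matrix.mul_apply]
    refine Finset.sum_congr rfl fun j _ => ?_
    rw [Matrix.mul_diagonal, Matrix.diagonal_mul, Matrix.transpose_apply]
    ring

/-- monotone trace inequality, odd power: `tr (A^m - B^m)(A - B) ≥ 0` -/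
theorem trace_mono_odd {A B : Matrix ι ι ℝ} (hA : A.IsSymm) (hB : B.IsSymm) {m : ℕ} (hm : Odd m) :
    (A ^ m * B).trace + (A * B ^ m).trace ≤ (A ^ (m + 1)).trace + (B ^ (m + 1)).trace := by
  obtain ⟨a, b, p, hp, hp1, hp2, h⟩ := exists_joint_spectral hA hB
  have h1 := h m 1
  have h2 := h 1 m
  have h3 := h (m + 1) 0
  have h4 := h 0 (m + 1)
  simp only [pow_one, pow_zero, mul_one, one_mul] at h1 h2 h3 h4
  rw [h1, h2, h3, h4, ← sub_nonneg, ← Finset.sum_add_distrib, ← Finset.sum_add_distrib,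
    ← Finset.sum_sub_distrib]
  refine Finset.sum_nonneg fun i _ => ?_
  rw [← Finset.sum_add_distrib, ← Finset.sum_add_distrib, ← Finset.sum_sub_distrib]
  refine Finset.sum_nonneg fun j _ => ?_
  have hmono : 0 ≤ (a i ^ m - b j ^ m) * (a i - b j) := by
    rcases le_total (a i) (b j) with hab | hab
    · have : a i ^ m ≤ b j ^ m := hm.strictMono_pow.monotone hab
      nlinarith
    · have : b j ^ m ≤ a i ^ m := hm.strictMono_pow.monotone hab
      nlinarith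
  have e : p i j * a i ^ (m + 1) + p i j * b j ^ (m + 1)
      - (p i j * (a i ^ m * b j) + p i j * (a i * b j ^ m))
      = p i j * ((a i ^ m - b j ^ m) * (a i - b j)) := by ring
  rw [e]
  exact mul_nonneg (hp i j) hmono

/-- the same with a sum: `0 ≤ tr (A^m + B^m)(A + B)` for odd `m` -/
theorem trace_mono_odd_add {A B : Matrix ι ι ℝ} (hA : A.IsSymm) (hB : B.IsSymm) {m : ℕ}
    (hm : Odd m) :
    0 ≤ (A ^ (m + 1)).trace + (B ^ (m + 1)).trace + (A ^ m * B).trace + (A * B ^ m).trace := by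
  have hB' : (-B).IsSymm := by unfold Matrix.IsSymm; rw [Matrix.transpose_neg, hB.eq]
  have h := trace_mono_odd hA hB' hm
  have e1 : (-B) ^ (m + 1) = B ^ (m + 1) := Even.neg_pow (Odd.add_one hm) B
  have e2 : (-B) ^ m = -B ^ m := Odd.neg_pow hm B
  rw [e1, e2, Matrix.mul_neg, Matrix.mul_neg, Matrix.trace_neg, Matrix.trace_neg] at h
  linarith

/-- `tr (A + B)(A^m + B^m) ≥ 0` for odd `m` -/
theorem trace_add_mul_pow_add_nonneg {A B : Matrix ι ι ℝ} (hA : A.IsSymm) (hB : B.IsSymm) {m : ℕ}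
    (hm : Odd m) : 0 ≤ ((A + B) * (A ^ m + B ^ m)).trace := by
  have h := trace_mono_odd_add hA hB hm
  have e : (A + B) * (A ^ m + B ^ m) = A ^ (m + 1) + A * B ^ m + B * A ^ m + B ^ (m + 1) := by
    rw [pow_succ' A, pow_succ' B]; noncomm_ring
  rw [e, Matrix.trace_add, Matrix.trace_add, Matrix.trace_add, Matrix.trace_mul_comm B]
  linarith

/-! ### conjugations -/

/-- `|tr (Mᵀ Z M)| ≤ b ‖M‖_F²` -/
theorem OpB.abs_trace_conj_le {Z : Matrix ι ι ℝ} {b : ℝ} (hb : 0 ≤ b) (h : OpB Z b)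
    (M : Matrix ι ι ℝ) : |(Mᵀ * Z * M).trace| ≤ b * frob M := by
  have e : (Mᵀ * Z * M).trace = ∑ j, (fun k => M k j) ⬝ᵥ (Z *ᵥ (fun k => M k j)) := by
    rw [Matrix.mul_assoc]
    simp only [Matrix.trace, Matrix.diag_apply, Matrix.mul_apply, Matrix.transpose_apply,
      dotProduct, Matrix.mulVec]
  rw [e, ← frob_transpose M]
  unfold frob
  rw [Finset.mul_sum]
  refine (Finset.abs_sum_le_sum_abs _ _).trans (Finset.sum_le_sum fun j _ => ?_)
  refine (h.quad_le hb _).trans (le_of_eq ?_)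
  simp [dotProduct, sq, Matrix.transpose_apply]

/-- lower bound of a quadratic form: `Y + μ ≥ 0` -/
def LoB (Y : Matrix ι ι ℝ) (μ : ℝ) : Prop := ∀ v : ι → ℝ, 0 ≤ v ⬝ᵥ (Y *ᵥ v) + μ * (v ⬝ᵥ v)

theorem LoB.trace_conj_ge {Y : Matrix ι ι ℝ} {μ : ℝ} (h : LoB Y μ) (M : Matrix ι ι ℝ) :
    -(μ * frob M) ≤ (Mᵀ * Y * M).trace := by
  have e : (Mᵀ * Y * M).trace = ∑ j, (fun k => M k j) ⬝ᵥ (Y *ᵥ (fun k => M k j)) := by
    rw [Matrix.mul_assoc]
    simp only [Matrix.trace, Matrix.diag_apply, Matrix.mul_apply, Matrix.transpose_apply,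
      dotProduct, Matrix.mulVec]
  have e2 : μ * frob M = ∑ j, μ * ((fun k => M k j) ⬝ᵥ (fun k => M k j)) := by
    rw [← frob_transpose M]
    unfold frob
    rw [Finset.mul_sum]
    exact Finset.sum_congr rfl fun j _ => by simp [dotProduct, sq, Matrix.transpose_apply]
  rw [e, e2, ← Finset.sum_neg_distrib]
  refine Finset.sum_le_sum fun j _ => ?_
  have := h (fun k => M k j)
  linarith

/-- `Y_aa ≥ -μ` -/
theorem LoB.diag_ge {Y : Matrix ι ι ℝ} {μ : ℝ} (h : LoB Y μ) (a : ι) : -μ ≤ Y a a := by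
  have := h (Pi.single a 1)
  simp at this
  linarith

/-- `Y_ac² ≤ (μ + Y_aa)(μ + Y_cc)` -/
theorem LoB.entry_sq_le {Y : Matrix ι ι ℝ} (hY : Y.IsSymm) {μ : ℝ} (h : LoB Y μ) {a c : ι}
    (hac : a ≠ c) : Y a c ^ 2 ≤ (μ + Y a a) * (μ + Y c c) := by
  have key : ∀ x y : ℝ, 0 ≤ (μ + Y a a) * (x * x) + 2 * Y a c * (x * y) + (μ + Y c c) * (y * y) := by
    intro x y
    have h1 := h (Pi.single a x + Pi.single c y)
    have e : (Pi.single a x + Pi.single c y : ι → ℝ) ⬝ᵥ (Y *ᵥ (Pi.single a x + Pi.single c y))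
        = Y a a * (x * x) + 2 * Y a c * (x * y) + Y c c * (y * y) := by
      rw [Matrix.mulVec_add, add_dotProduct, dotProduct_add, dotProduct_add]
      simp [Matrix.mulVec_single, hY.apply a c]
      ring
    have e2 : (Pi.single a x + Pi.single c y : ι → ℝ) ⬝ᵥ (Pi.single a x + Pi.single c y)
        = x * x + y * y := by
      rw [add_dotProduct, dotProduct_add, dotProduct_add]
      simp [hac, hac.symm]
    rw [e, e2] at h1
    linarith
  have ha : 0 ≤ μ + Y a a := by have := h.diag_ge a; linarith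
  have hc : 0 ≤ μ + Y c c := by have := h.diag_ge c; linarith
  rcases ha.eq_or_lt with h0 | h0
  · -- then the off-diagonal entry vanishes
    have hz : Y a c = 0 := by
      by_contra hne
      have := key (-(μ + Y c c + 1) / (2 * Y a c)) 1
      rw [← h0] at this
      have e3 : 2 * Y a c * (-(μ + Y c c + 1) / (2 * Y a c) * 1) = -(μ + Y c c + 1) := by
        field_simp
      rw [e3] at this
      linarith
    rw [hz, ← h0]; simp
  · have := key (-(Y a c) / (μ + Y a a)) 1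
    have e : (μ + Y a a) * (-(Y a c) / (μ + Y a a) * (-(Y a c) / (μ + Y a a)))
        + 2 * Y a c * (-(Y a c) / (μ + Y a a) * 1) + (μ + Y c c) * (1 * 1)
        = ((μ + Y a a) * (μ + Y c c) - Y a c ^ 2) / (μ + Y a a) := by
      field_simp; ring
    rw [e] at this
    have h2 := (div_nonneg_iff.1 this)
    rcases h2 with h2 | h2
    · linarith [h2.1]
    · linarith [h2.2]

/-- odd powers on the diagonal: `(Y^(2j+1))_aa ≥ -μ (Y^(2j))_aa` -/
theorem LoB.odd_diag_ge {Y : Matrix ι ι ℝ} (hY : Y.IsSymm) {μ : ℝ} (h : LoB Y μ) (j : ℕ) (a : ι) :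
    -(μ * (Y ^ (2 * j)) a a) ≤ (Y ^ (2 * j + 1)) a a := by
  have h1 := h (Y ^ j *ᵥ (Pi.single a 1))
  have e : (Y ^ (2 * j + 1)) a a
      = (Y ^ j *ᵥ (Pi.single a 1)) ⬝ᵥ (Y *ᵥ (Y ^ j *ᵥ (Pi.single a 1))) := by
    rw [entry_eq (Y ^ (2 * j + 1)) a a, symm_dot (IsSymm_pow hY j), Matrix.mulVec_mulVec,
      Matrix.mulVec_mulVec, ← pow_succ, ← pow_add]
    congr 3
    ring
  have e0 : (Y ^ (2 * j)) a a = (Y ^ j *ᵥ (Pi.single a 1)) ⬝ᵥ ((Y ^ j *ᵥ (Pi.single a 1))) := by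
    rw [entry_eq (Y ^ (2 * j)) a a, symm_dot (IsSymm_pow hY j), Matrix.mulVec_mulVec, ← pow_add]
    congr 3
    ring
  rw [e, e0]
  linarith

/-- `tr Y^(2j+1) ≥ -μ tr Y^(2j)` -/
theorem LoB.trace_odd_ge {Y : Matrix ι ι ℝ} (hY : Y.IsSymm) {μ : ℝ} (h : LoB Y μ) (j : ℕ) :
    -(μ * (Y ^ (2 * j)).trace) ≤ (Y ^ (2 * j + 1)).trace := by
  simp only [Matrix.trace, Matrix.diag_apply]
  rw [Finset.mul_sum, ← Finset.sum_neg_distrib]
  exact Finset.sum_le_sum fun a _ => h.odd_diag_ge hY j a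

/-! ### two matrices: `W = frob (A * B) = tr A² B²` -/

theorem frob_mul_eq_trace {A B : Matrix ι ι ℝ} (hA : A.IsSymm) (hB : B.IsSymm) :
    frob (A * B) = (A ^ 2 * B ^ 2).trace := by
  rw [frob_eq_trace', Matrix.transpose_mul, hA.eq, hB.eq]
  have e : A * B * (B * A) = A * (B ^ 2 * A) := by rw [sq]; simp only [Matrix.mul_assoc]
  rw [e, Matrix.trace_mul_comm, sq A, Matrix.mul_assoc, Matrix.trace_mul_comm]

theorem frob_mul_comm {A B : Matrix ι ι ℝ} (hA : A.IsSymm) (hB : B.IsSymm) :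
    frob (A * B) = frob (B * A) := by
  rw [← frob_transpose, Matrix.transpose_mul, hA.eq, hB.eq]

/-- `|tr (M A B)| ≤ ‖M‖_F √W` -/
theorem abs_trace_mul_mul_le (M A B : Matrix ι ι ℝ) :
    |(M * (A * B)).trace| ≤ √(frob M) * √(frob (A * B)) := abs_trace_mul_le M (A * B)

/-- `|tr A² B| ≤ √(tr A²) √W` -/
theorem abs_trace_sq_mul_le {A B : Matrix ι ι ℝ} (hA : A.IsSymm) :
    |(A ^ 2 * B).trace| ≤ √((A ^ 2).trace) * √(frob (A * B)) := by
  have h := abs_trace_mul_mul_le A A B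
  rw [frob_eq_trace_sq hA, ← Matrix.mul_assoc, ← sq] at h
  exact h

/-- `|tr A^(k+1) B| ≤ √(tr A^(2k)) √W` -/
theorem abs_trace_pow_mul_le {A B : Matrix ι ι ℝ} (hA : A.IsSymm) (k : ℕ) :
    |(A ^ (k + 1) * B).trace| ≤ √((A ^ (2 * k)).trace) * √(frob (A * B)) := by
  have h := abs_trace_mul_mul_le (A ^ k) A B
  rw [frob_pow_eq hA, ← Matrix.mul_assoc, ← pow_succ] at h
  exact h

/-- `|tr A^(k+2) B²| ≤ b^k W` -/
theorem OpB.abs_trace_pow_mul_sq_le {A B : Matrix ι ι ℝ} (hA : A.IsSymm) (hB : B.IsSymm) {b : ℝ}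
    (hb : 0 ≤ b) (h : OpB A b) (k : ℕ) :
    |(A ^ (k + 2) * B ^ 2).trace| ≤ b ^ k * frob (A * B) := by
  have h1 := (h.pow k).abs_trace_conj_le (pow_nonneg hb k) (A * B)
  rw [Matrix.transpose_mul, hA.eq, hB.eq] at h1
  have e : (B * A * A ^ k * (A * B)).trace = (A ^ (k + 2) * B ^ 2).trace := by
    have e1 : B * A * A ^ k * (A * B) = B * (A ^ (k + 2) * B) := by
      rw [show k + 2 = 1 + k + 1 by ring, pow_succ, pow_add, pow_one]
      simp only [Matrix.mul_assoc]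
    rw [e1, Matrix.trace_mul_comm, sq, Matrix.mul_assoc]
  rwa [e] at h1

/-- `tr A³ B² ≥ -μ W` if `A + μ ≥ 0` -/
theorem LoB.trace_cube_mul_sq_ge {A B : Matrix ι ι ℝ} (hA : A.IsSymm) (hB : B.IsSymm) {μ : ℝ}
    (h : LoB A μ) : -(μ * frob (A * B)) ≤ (A ^ 3 * B ^ 2).trace := by
  have h1 := h.trace_conj_ge (A * B)
  rw [Matrix.transpose_mul, hA.eq, hB.eq] at h1
  have e : (B * A * A * (A * B)).trace = (A ^ 3 * B ^ 2).trace := by
    have e1 : B * A * A * (A * B) = B * (A ^ 3 * B) := by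
      rw [pow_succ, sq]; simp only [Matrix.mul_assoc]
    rw [e1, Matrix.trace_mul_comm, sq, Matrix.mul_assoc]
  rwa [e] at h1

/-- `tr A² B ≥ -μ tr A²` if `B + μ ≥ 0` -/
theorem LoB.trace_sq_mul_ge {A B : Matrix ι ι ℝ} (hA : A.IsSymm) {μ : ℝ}
    (h : LoB B μ) : -(μ * (A ^ 2).trace) ≤ (A ^ 2 * B).trace := by
  have h1 := h.trace_conj_ge A
  rw [hA.eq, frob_eq_trace_sq hA] at h1
  rwa [Matrix.mul_assoc, Matrix.trace_mul_comm, Matrix.mul_assoc, ← sq, Matrix.trace_mul_comm] at h1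

/-- `2 tr (A B A² B²) ≤ tr A⁴ B² + tr A² B⁴` (in absolute value) -/
theorem abs_trace_word_le {A B : Matrix ι ι ℝ} (hA : A.IsSymm) (hB : B.IsSymm) :
    2 * |(A * B * A ^ 2 * B ^ 2).trace| ≤ (A ^ 4 * B ^ 2).trace + (A ^ 2 * B ^ 4).trace := by
  have e1 : (A * B * A ^ 2 * B ^ 2).trace = ((B ^ 2 * A) * (B * A ^ 2)).trace := by
    rw [Matrix.trace_mul_comm]; simp only [Matrix.mul_assoc]
  have f1 : frob (B ^ 2 * A) = (A ^ 2 * B ^ 4).trace := by
    rw [frob_mul_eq_trace (IsSymm_pow hB 2) hA, Matrix.trace_mul_comm, ← pow_mul]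
  have f2 : frob (B * A ^ 2) = (A ^ 4 * B ^ 2).trace := by
    rw [frob_mul_eq_trace hB (IsSymm_pow hA 2), Matrix.trace_mul_comm, ← pow_mul]
  have h := abs_trace_mul_le (B ^ 2 * A) (B * A ^ 2)
  rw [e1, ← f1, ← f2]
  have s1 := Real.sq_sqrt (frob_nonneg (B ^ 2 * A))
  have s2 := Real.sq_sqrt (frob_nonneg (B * A ^ 2))
  nlinarith [sq_nonneg (√(frob (B ^ 2 * A)) - √(frob (B * A ^ 2)))]

/-- `|tr (M Mᵀ M)| ≤ ‖M‖_F³` in squared form -/
theorem trace_mul_transpose_mul_sq_le (M : Matrix ι ι ℝ) :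
    ((M * (Mᵀ * M)).trace) ^ 2 ≤ frob M ^ 3 := by
  have h := trace_mul_sq_le M (Mᵀ * M)
  have h2 := frob_mul_le Mᵀ M
  rw [frob_transpose] at h2
  calc _ ≤ _ := h
    _ ≤ frob M * (frob M * frob M) := mul_le_mul_of_nonneg_left h2 (frob_nonneg M)
    _ = _ := by ring

/-- a trace of the product of two positive semidefinite matrices is nonnegative -/
theorem trace_mul_nonneg_of_LoB {A B : Matrix ι ι ℝ} (hA : A.IsSymm)
    (h : LoB A 0) (h' : LoB B 0) : 0 ≤ (A * B).trace := by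
  obtain ⟨U, a, hU, hU', e⟩ := exists_diag hA
  have ha : ∀ i, 0 ≤ a i := by
    intro i
    have h1 := h (U *ᵥ (Pi.single i 1))
    have e1 : (U *ᵥ (Pi.single i 1)) ⬝ᵥ (A *ᵥ (U *ᵥ (Pi.single i 1)))
        = (Pi.single i (1 : ℝ)) ⬝ᵥ ((Uᵀ * A * U) *ᵥ (Pi.single i 1)) := by
      rw [← Matrix.mulVec_mulVec, ← Matrix.mulVec_mulVec, Matrix.dotProduct_mulVec (Pi.single i 1),
        Matrix.vecMul_transpose]
    have e2 : Uᵀ * A * U = Matrix.diagonal a := by
      rw [e]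
      calc Uᵀ * (U * Matrix.diagonal a * Uᵀ) * U = (Uᵀ * U) * Matrix.diagonal a * (Uᵀ * U) := by
            simp only [Matrix.mul_assoc]
        _ = _ := by rw [hU, Matrix.one_mul, Matrix.mul_one]
    rw [e1, e2] at h1
    simpa using h1
  set C : Matrix ι ι ℝ := U * Matrix.diagonal (fun i => √(a i)) with hC
  have hCC : A = C * Cᵀ := by
    rw [hC, Matrix.transpose_mul, Matrix.diagonal_transpose, e]
    calc U * Matrix.diagonal a * Uᵀ = U * (Matrix.diagonal (fun i => √(a i)) *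
          Matrix.diagonal (fun i => √(a i))) * Uᵀ := by
          rw [Matrix.diagonal_mul_diagonal]
          congr 3
          funext i
          exact (Real.mul_self_sqrt (ha i)).symm
      _ = _ := by simp only [Matrix.mul_assoc]
  have h2 := h'.trace_conj_ge C
  rw [zero_mul, neg_zero] at h2
  rw [hCC, Matrix.mul_assoc, Matrix.trace_mul_comm]
  exact h2

/-! ### weighted sums over rows -/

/-- `|∑_i g_i ∑_{a,b} M_ia N_ib Φ_ab| ≤ √(frob Φ) ∑_i |g_i| |M_i| |N_i|` -/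
theorem abs_triple_sum_le (g : ι → ℝ) (M N Φ : Matrix ι ι ℝ) :
    |∑ i, g i * ∑ a, ∑ b, M i a * (Φ a b * N i b)|
      ≤ √(frob Φ) * ∑ i, |g i| * (√(∑ a, M i a ^ 2) * √(∑ b, N i b ^ 2)) := by
  rw [Finset.mul_sum]
  refine (Finset.abs_sum_le_sum_abs _ _).trans (Finset.sum_le_sum fun i _ => ?_)
  rw [abs_mul]
  have e : ∑ a, ∑ b, M i a * (Φ a b * N i b) = (M i) ⬝ᵥ (Φ *ᵥ (N i)) := by
    simp only [dotProduct, Matrix.mulVec, Finset.mul_sum]
  have h := bilin_le_frob Φ (M i) (N i)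
  rw [e]
  have e1 : (M i) ⬝ᵥ (M i) = ∑ a, M i a ^ 2 := by simp [dotProduct, sq]
  have e2 : (N i) ⬝ᵥ (N i) = ∑ a, N i a ^ 2 := by simp [dotProduct, sq]
  rw [e1, e2] at h
  calc |g i| * |M i ⬝ᵥ Φ *ᵥ N i| ≤ |g i| * (√(∑ a, M i a ^ 2) * √(∑ b, N i b ^ 2) * √(frob Φ)) :=
        mul_le_mul_of_nonneg_left h (abs_nonneg _)
    _ = _ := by ring

/-- weighted Cauchy–Schwarz over columns:
`|∑_c g_c ⟨u_c, v_c⟩| ≤ √(∑ g_c² |u_c|²) √(∑ |v_c|²)` -/
theorem abs_sum_weighted_dot_le (g : ι → ℝ) (u v : ι → ι → ℝ) :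
    |∑ c, g c * ∑ x, u c x * v c x| ≤ √(∑ c, g c ^ 2 * ∑ x, u c x ^ 2) * √(∑ c, ∑ x, v c x ^ 2) := by
  have e : ∑ c, g c * ∑ x, u c x * v c x = ∑ p : ι × ι, (g p.1 * u p.1 p.2) * v p.1 p.2 := by
    rw [Fintype.sum_prod_type]
    refine Finset.sum_congr rfl fun c _ => ?_
    rw [Finset.mul_sum]
    exact Finset.sum_congr rfl fun x _ => by ring
  have e1 : ∑ c, g c ^ 2 * ∑ x, u c x ^ 2 = ∑ p : ι × ι, (g p.1 * u p.1 p.2) ^ 2 := by
    rw [Fintype.sum_prod_type]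
    refine Finset.sum_congr rfl fun c _ => ?_
    rw [Finset.mul_sum]
    exact Finset.sum_congr rfl fun x _ => by ring
  have e2 : ∑ c, ∑ x, v c x ^ 2 = ∑ p : ι × ι, (v p.1 p.2) ^ 2 := by
    rw [Fintype.sum_prod_type]
  rw [e, e1, e2, ← Real.sqrt_mul (Finset.sum_nonneg fun _ _ => sq_nonneg _)]
  exact Real.abs_le_sqrt (Finset.sum_mul_sq_le_sq_mul_sq _ _ _)

end Vale.Agent.P049.TS.Mat
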