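import Mathlib

/-!
Toolbox of inequalities for real symmetric matrices (used by the drift lemmas).

* `frob M = ∑ i, ∑ j, M i j ^ 2` (squared Frobenius norm), Cauchy–Schwarz for traces;
* `OpB Z b`: the operator norm of `Z` is at most `b`;  `opB_of_trace_four`: `tr Z⁴ ≤ b⁴` gives it;
* `(Z^(k+2)) a a`, `(Z^(k+2)) a b`, `tr Z^(k+2)`, … in terms of `b` and `w_a = (Z^2) a a`.
-/

set_option linter.unusedSectionVars false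

namespace Vale.Agent.P049.TS.Mat

open Matrix Finset

variable {ι : Type*} [Fintype ι] [DecidableEq ι]

/-- the squared Frobenius norm -/
def frob {κ : Type*} [Fintype κ] (M : Matrix ι κ ℝ) : ℝ := ∑ i, ∑ j, M i j ^ 2

/-- operator norm bound -/
def OpB (Z : Matrix ι ι ℝ) (b : ℝ) : Prop :=
  ∀ v : ι → ℝ, (Z *ᵥ v) ⬝ᵥ (Z *ᵥ v) ≤ b ^ 2 * (v ⬝ᵥ v)

theorem frob_nonneg (M : Matrix ι ι ℝ) : 0 ≤ frob M :=
  Finset.sum_nonneg fun _ _ => Finset.sum_nonneg fun _ _ => sq_nonneg _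

theorem frob_transpose (M : Matrix ι ι ℝ) : frob Mᵀ = frob M := by
  unfold frob
  rw [Finset.sum_comm]
  rfl

theorem frob_eq_trace (M : Matrix ι ι ℝ) : frob M = (Mᵀ * M).trace := by
  rw [← frob_transpose]
  simp only [frob, Matrix.trace, Matrix.diag_apply, Matrix.mul_apply, Matrix.transpose_apply, sq]

theorem frob_eq_trace' (M : Matrix ι ι ℝ) : frob M = (M * Mᵀ).trace := by
  rw [frob_eq_trace, Matrix.trace_mul_comm]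

/-- for a symmetric matrix -/
theorem frob_eq_trace_sq {M : Matrix ι ι ℝ} (hM : M.IsSymm) : frob M = (M ^ 2).trace := by
  rw [frob_eq_trace, hM.eq, sq]

theorem frob_neg (M : Matrix ι ι ℝ) : frob (-M) = frob M := by
  simp [frob]

theorem dot_self_nonneg (v : ι → ℝ) : 0 ≤ v ⬝ᵥ v := by
  unfold dotProduct
  exact Finset.sum_nonneg fun i _ => mul_self_nonneg _

theorem dot_sq_le (u v : ι → ℝ) : (u ⬝ᵥ v) ^ 2 ≤ (u ⬝ᵥ u) * (v ⬝ᵥ v) := by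
  have h := Finset.sum_mul_sq_le_sq_mul_sq Finset.univ u v
  simpa [dotProduct, sq] using h

theorem abs_dot_le (u v : ι → ℝ) : |u ⬝ᵥ v| ≤ √(u ⬝ᵥ u) * √(v ⬝ᵥ v) := by
  rw [← Real.sqrt_mul (dot_self_nonneg u)]
  exact Real.abs_le_sqrt (dot_sq_le u v)

/-- Cauchy–Schwarz for the Frobenius inner product, squared form -/
theorem trace_transpose_mul_sq_le (M N : Matrix ι ι ℝ) :
    ((Mᵀ * N).trace) ^ 2 ≤ frob M * frob N := by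
  have h1 : (Mᵀ * N).trace = ∑ p : ι × ι, M p.2 p.1 * N p.2 p.1 := by
    rw [Fintype.sum_prod_type]
    simp only [Matrix.trace, Matrix.diag_apply, Matrix.mul_apply, Matrix.transpose_apply]
  have h2 : frob M = ∑ p : ι × ι, M p.2 p.1 ^ 2 := by
    rw [Fintype.sum_prod_type, ← frob_transpose]; rfl
  have h3 : frob N = ∑ p : ι × ι, N p.2 p.1 ^ 2 := by
    rw [Fintype.sum_prod_type, ← frob_transpose]; rfl
  rw [h1, h2, h3]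
  exact Finset.sum_mul_sq_le_sq_mul_sq _ _ _

/-- Cauchy–Schwarz for traces of products -/
theorem trace_mul_sq_le (M N : Matrix ι ι ℝ) : ((M * N).trace) ^ 2 ≤ frob M * frob N := by
  have h := trace_transpose_mul_sq_le Mᵀ N
  rwa [Matrix.transpose_transpose, frob_transpose] at h

theorem abs_trace_mul_le (M N : Matrix ι ι ℝ) : |(M * N).trace| ≤ √(frob M) * √(frob N) := by
  rw [← Real.sqrt_mul (frob_nonneg M)]
  exact Real.abs_le_sqrt (trace_mul_sq_le M N)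

theorem mulVec_dot_le_frob (M : Matrix ι ι ℝ) (v : ι → ℝ) :
    (M *ᵥ v) ⬝ᵥ (M *ᵥ v) ≤ frob M * (v ⬝ᵥ v) := by
  unfold frob
  rw [Finset.sum_mul]
  simp only [dotProduct]
  refine Finset.sum_le_sum fun i _ => ?_
  have h := dot_sq_le (fun j => M i j) v
  have e1 : (fun j => M i j) ⬝ᵥ (fun j => M i j) = ∑ j, M i j ^ 2 := by
    simp [dotProduct, sq]
  rw [e1] at h
  have e2 : (M *ᵥ v) i * (M *ᵥ v) i = ((fun j => M i j) ⬝ᵥ v) ^ 2 := by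
    rw [sq]; rfl
  rw [e2]
  exact h

theorem bilin_le_frob (M : Matrix ι ι ℝ) (u v : ι → ℝ) :
    |u ⬝ᵥ (M *ᵥ v)| ≤ √(u ⬝ᵥ u) * √(v ⬝ᵥ v) * √(frob M) := by
  refine (abs_dot_le _ _).trans ?_
  have h := Real.sqrt_le_sqrt (mulVec_dot_le_frob M v)
  rw [Real.sqrt_mul (frob_nonneg M)] at h
  calc √(u ⬝ᵥ u) * √((M *ᵥ v) ⬝ᵥ (M *ᵥ v)) ≤ √(u ⬝ᵥ u) * (√(frob M) * √(v ⬝ᵥ v)) :=
        mul_le_mul_of_nonneg_left h (Real.sqrt_nonneg _)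
    _ = _ := by ring

theorem frob_mul_le (M N : Matrix ι ι ℝ) : frob (M * N) ≤ frob M * frob N := by
  have h1 : frob (M * N) = ∑ j, (M *ᵥ (fun k => N k j)) ⬝ᵥ (M *ᵥ (fun k => N k j)) := by
    rw [← frob_transpose]
    simp only [frob, Matrix.transpose_apply, Matrix.mul_apply, dotProduct, Matrix.mulVec, sq]
  rw [h1]
  calc _ ≤ ∑ j, frob M * ((fun k => N k j) ⬝ᵥ (fun k => N k j)) :=
        Finset.sum_le_sum fun j _ => mulVec_dot_le_frob M _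
    _ = frob M * frob N := by
        rw [← Finset.mul_sum, ← frob_transpose N]
        simp [frob, dotProduct, sq]

/-! ### operator bounds -/

theorem symm_dot {Z : Matrix ι ι ℝ} (hZ : Z.IsSymm) (u v : ι → ℝ) :
    (Z *ᵥ u) ⬝ᵥ v = u ⬝ᵥ (Z *ᵥ v) := by
  rw [dotProduct_mulVec, ← Matrix.mulVec_transpose, hZ.eq]

theorem IsSymm_pow {Z : Matrix ι ι ℝ} (hZ : Z.IsSymm) (k : ℕ) : (Z ^ k).IsSymm := by
  unfold Matrix.IsSymm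
  rw [Matrix.transpose_pow, hZ.eq]

theorem OpB.mono {Z : Matrix ι ι ℝ} {b c : ℝ} (h : OpB Z b) (hb : 0 ≤ b) (hbc : b ≤ c) :
    OpB Z c := by
  intro v
  refine (h v).trans (mul_le_mul_of_nonneg_right ?_ (dot_self_nonneg v))
  exact pow_le_pow_left₀ hb hbc 2

theorem OpB.mul {Z W : Matrix ι ι ℝ} {b c : ℝ} (h : OpB Z b) (h' : OpB W c) :
    OpB (Z * W) (b * c) := by
  intro v
  rw [← Matrix.mulVec_mulVec]
  calc _ ≤ b ^ 2 * ((W *ᵥ v) ⬝ᵥ (W *ᵥ v)) := h _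
    _ ≤ b ^ 2 * (c ^ 2 * (v ⬝ᵥ v)) := mul_le_mul_of_nonneg_left (h' v) (sq_nonneg b)
    _ = _ := by ring

theorem opB_one : OpB (1 : Matrix ι ι ℝ) 1 := by
  intro v; simp

theorem OpB.pow {Z : Matrix ι ι ℝ} {b : ℝ} (h : OpB Z b) (k : ℕ) : OpB (Z ^ k) (b ^ k) := by
  induction k with
  | zero => simpa using opB_one
  | succ k ih => rw [pow_succ, pow_succ]; exact ih.mul h

theorem opB_of_frob {Z : Matrix ι ι ℝ} {b : ℝ} (h : frob Z ≤ b ^ 2) : OpB Z b := fun v =>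
  (mulVec_dot_le_frob Z v).trans (mul_le_mul_of_nonneg_right h (dot_self_nonneg v))

theorem trace_four_eq_frob {Z : Matrix ι ι ℝ} (hZ : Z.IsSymm) : (Z ^ 4).trace = frob (Z ^ 2) := by
  rw [frob_eq_trace_sq (IsSymm_pow hZ 2), ← pow_mul]

/-- `tr Z⁴ ≤ b⁴` bounds the operator norm by `b` -/
theorem opB_of_trace_four {Z : Matrix ι ι ℝ} (hZ : Z.IsSymm) {b : ℝ}
    (h : (Z ^ 4).trace ≤ b ^ 4) : OpB Z b := by
  intro v
  rw [trace_four_eq_frob hZ] at h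
  have h1 : (Z *ᵥ v) ⬝ᵥ (Z *ᵥ v) = v ⬝ᵥ (Z ^ 2 *ᵥ v) := by
    rw [symm_dot hZ, Matrix.mulVec_mulVec, sq]
  have h2 : ((Z *ᵥ v) ⬝ᵥ (Z *ᵥ v)) ^ 2 ≤ (b ^ 2 * (v ⬝ᵥ v)) ^ 2 := by
    rw [h1]
    calc _ ≤ (v ⬝ᵥ v) * ((Z ^ 2 *ᵥ v) ⬝ᵥ (Z ^ 2 *ᵥ v)) := dot_sq_le _ _
      _ ≤ (v ⬝ᵥ v) * (frob (Z ^ 2) * (v ⬝ᵥ v)) :=
          mul_le_mul_of_nonneg_left (mulVec_dot_le_frob _ _) (dot_self_nonneg v)
      _ ≤ (v ⬝ᵥ v) * (b ^ 4 * (v ⬝ᵥ v)) :=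
          mul_le_mul_of_nonneg_left (mul_le_mul_of_nonneg_right h (dot_self_nonneg v))
            (dot_self_nonneg v)
      _ = _ := by ring
  exact abs_le_of_sq_le_sq' h2 (mul_nonneg (sq_nonneg b) (dot_self_nonneg v)) |>.2

theorem OpB.sqrt_dot_le {Z : Matrix ι ι ℝ} {b : ℝ} (hb : 0 ≤ b) (h : OpB Z b) (v : ι → ℝ) :
    √((Z *ᵥ v) ⬝ᵥ (Z *ᵥ v)) ≤ b * √(v ⬝ᵥ v) := by
  have := Real.sqrt_le_sqrt (h v)
  rwa [Real.sqrt_mul (sq_nonneg b), Real.sqrt_sq hb] at this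

theorem OpB.abs_bilin_le {Z : Matrix ι ι ℝ} {b : ℝ} (hb : 0 ≤ b) (h : OpB Z b) (u v : ι → ℝ) :
    |u ⬝ᵥ (Z *ᵥ v)| ≤ b * (√(u ⬝ᵥ u) * √(v ⬝ᵥ v)) := by
  refine (abs_dot_le _ _).trans ?_
  calc √(u ⬝ᵥ u) * √((Z *ᵥ v) ⬝ᵥ (Z *ᵥ v)) ≤ √(u ⬝ᵥ u) * (b * √(v ⬝ᵥ v)) :=
        mul_le_mul_of_nonneg_left (h.sqrt_dot_le hb v) (Real.sqrt_nonneg _)
    _ = _ := by ring

theorem OpB.quad_le {Z : Matrix ι ι ℝ} {b : ℝ} (hb : 0 ≤ b) (h : OpB Z b) (v : ι → ℝ) :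
    |v ⬝ᵥ (Z *ᵥ v)| ≤ b * (v ⬝ᵥ v) := by
  have := h.abs_bilin_le hb v v
  rwa [Real.mul_self_sqrt (dot_self_nonneg v)] at this

theorem OpB.frob_mul_le {Z : Matrix ι ι ℝ} {b : ℝ} (h : OpB Z b) (N : Matrix ι ι ℝ) :
    frob (Z * N) ≤ b ^ 2 * frob N := by
  have h1 : frob (Z * N) = ∑ j, (Z *ᵥ (fun k => N k j)) ⬝ᵥ (Z *ᵥ (fun k => N k j)) := by
    rw [← frob_transpose]
    simp only [frob, Matrix.transpose_apply, Matrix.mul_apply, dotProduct, Matrix.mulVec, sq]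
  rw [h1]
  calc _ ≤ ∑ j, b ^ 2 * ((fun k => N k j) ⬝ᵥ (fun k => N k j)) :=
        Finset.sum_le_sum fun j _ => h _
    _ = _ := by
        rw [← Finset.mul_sum, ← frob_transpose N]
        simp [frob, dotProduct, sq]

theorem OpB.frob_mul_le_right {Z : Matrix ι ι ℝ} (hZ : Z.IsSymm) {b : ℝ} (h : OpB Z b)
    (N : Matrix ι ι ℝ) : frob (N * Z) ≤ b ^ 2 * frob N := by
  have h1 := h.frob_mul_le Nᵀ
  rw [frob_transpose] at h1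
  rwa [← frob_transpose, Matrix.transpose_mul, hZ.eq]

/-! ### powers: entries, rows, traces -/

/-- the column `a` of a symmetric matrix as a vector -/
theorem mulVec_single (Z : Matrix ι ι ℝ) (a : ι) : Z *ᵥ (Pi.single a 1) = fun i => Z i a := by
  ext i; simp

theorem entry_eq (M : Matrix ι ι ℝ) (a c : ι) :
    M a c = (Pi.single a (1 : ℝ)) ⬝ᵥ (M *ᵥ (Pi.single c 1)) := by
  simp

theorem sq_diag_eq_dot {Z : Matrix ι ι ℝ} (hZ : Z.IsSymm) (a : ι) :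
    (Z ^ 2) a a = (Z *ᵥ (Pi.single a 1)) ⬝ᵥ (Z *ᵥ (Pi.single a 1)) := by
  rw [entry_eq (Z ^ 2) a a, symm_dot hZ, Matrix.mulVec_mulVec, sq]

theorem sq_diag_nonneg {Z : Matrix ι ι ℝ} (hZ : Z.IsSymm) (a : ι) : 0 ≤ (Z ^ 2) a a := by
  rw [sq_diag_eq_dot hZ]; exact dot_self_nonneg _

theorem sq_diag_eq_sum {Z : Matrix ι ι ℝ} (hZ : Z.IsSymm) (a : ι) :
    (Z ^ 2) a a = ∑ j, Z a j ^ 2 := by
  rw [sq, Matrix.mul_apply]
  refine Finset.sum_congr rfl fun j _ => ?_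
  rw [hZ.apply a j, sq]

theorem pow_even_diag {Z : Matrix ι ι ℝ} (hZ : Z.IsSymm) (k : ℕ) (a : ι) :
    (Z ^ (2 * k)) a a = ∑ j, (Z ^ k) a j ^ 2 := by
  rw [mul_comm, pow_mul, sq_diag_eq_sum (IsSymm_pow hZ k)]

theorem pow_even_diag_nonneg {Z : Matrix ι ι ℝ} (hZ : Z.IsSymm) (k : ℕ) (a : ι) :
    0 ≤ (Z ^ (2 * k)) a a := by
  rw [pow_even_diag hZ]; exact Finset.sum_nonneg fun _ _ => sq_nonneg _

/-- `|(Z^(k+2))_{ac}| ≤ b^k √w_a √w_c` -/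
theorem OpB.pow_apply_le {Z : Matrix ι ι ℝ} (hZ : Z.IsSymm) {b : ℝ} (hb : 0 ≤ b) (h : OpB Z b)
    (k : ℕ) (a c : ι) :
    |(Z ^ (k + 2)) a c| ≤ b ^ k * (√((Z ^ 2) a a) * √((Z ^ 2) c c)) := by
  have e : (Z ^ (k + 2)) a c
      = (Z *ᵥ (Pi.single a 1)) ⬝ᵥ (Z ^ k *ᵥ (Z *ᵥ (Pi.single c 1))) := by
    rw [entry_eq (Z ^ (k + 2)) a c, symm_dot hZ, Matrix.mulVec_mulVec, Matrix.mulVec_mulVec]
    congr 2
    rw [← pow_succ', ← pow_succ]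
  rw [e, sq_diag_eq_dot hZ a, sq_diag_eq_dot hZ c]
  exact (h.pow k).abs_bilin_le (pow_nonneg hb k) _ _

/-- `|(Z^(k+2))_{aa}| ≤ b^k w_a` -/
theorem OpB.pow_diag_le {Z : Matrix ι ι ℝ} (hZ : Z.IsSymm) {b : ℝ} (hb : 0 ≤ b) (h : OpB Z b)
    (k : ℕ) (a : ι) : |(Z ^ (k + 2)) a a| ≤ b ^ k * (Z ^ 2) a a := by
  have := h.pow_apply_le hZ hb k a a
  rwa [Real.mul_self_sqrt (sq_diag_nonneg hZ a)] at this

/-- `|(Z^(k+2))_{ac}| ≤ b^k (w_a + w_c)/2` -/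
theorem OpB.pow_apply_le' {Z : Matrix ι ι ℝ} (hZ : Z.IsSymm) {b : ℝ} (hb : 0 ≤ b) (h : OpB Z b)
    (k : ℕ) (a c : ι) :
    |(Z ^ (k + 2)) a c| ≤ b ^ k * (((Z ^ 2) a a + (Z ^ 2) c c) / 2) := by
  refine (h.pow_apply_le hZ hb k a c).trans (mul_le_mul_of_nonneg_left ?_ (pow_nonneg hb k))
  have h1 := Real.sq_sqrt (sq_diag_nonneg hZ a)
  have h2 := Real.sq_sqrt (sq_diag_nonneg hZ c)
  nlinarith [sq_nonneg (√((Z ^ 2) a a) - √((Z ^ 2) c c))]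

/-- rows of powers: `∑_c ((Z^(k+l))_{ac})² ≤ b^(2k) ∑_c ((Z^l)_{ac})²` -/
theorem OpB.row_pow_le {Z : Matrix ι ι ℝ} (hZ : Z.IsSymm) {b : ℝ} (h : OpB Z b)
    (k l : ℕ) (a : ι) :
    ∑ c, (Z ^ (k + l)) a c ^ 2 ≤ b ^ (2 * k) * ∑ c, (Z ^ l) a c ^ 2 := by
  have e : ∀ m : ℕ, ∑ c, (Z ^ m) a c ^ 2
      = (Z ^ m *ᵥ (Pi.single a 1)) ⬝ᵥ (Z ^ m *ᵥ (Pi.single a 1)) := by
    intro m
    rw [mulVec_single]
    simp only [dotProduct]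
    refine Finset.sum_congr rfl fun c _ => ?_
    rw [(IsSymm_pow hZ m).apply a c, sq]
  rw [e, e, pow_add, ← Matrix.mulVec_mulVec]
  have := h.pow k (Z ^ l *ᵥ (Pi.single a 1))
  rw [← pow_mul, mul_comm k 2] at this
  exact this

theorem frob_pow_eq {Z : Matrix ι ι ℝ} (hZ : Z.IsSymm) (k : ℕ) :
    frob (Z ^ k) = (Z ^ (2 * k)).trace := by
  rw [frob_eq_trace_sq (IsSymm_pow hZ k), ← pow_mul, mul_comm]

/-- `‖Z^(k+l)‖_F² ≤ b^(2k) ‖Z^l‖_F²` -/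
theorem OpB.frob_pow_le {Z : Matrix ι ι ℝ} {b : ℝ} (h : OpB Z b) (k l : ℕ) :
    frob (Z ^ (k + l)) ≤ b ^ (2 * k) * frob (Z ^ l) := by
  rw [pow_add]
  have := (h.pow k).frob_mul_le (Z ^ l)
  rwa [← pow_mul, mul_comm k 2] at this

theorem trace_pow_even_nonneg {Z : Matrix ι ι ℝ} (hZ : Z.IsSymm) (k : ℕ) :
    0 ≤ (Z ^ (2 * k)).trace := by
  rw [← frob_pow_eq hZ]; exact frob_nonneg _

/-- `|tr Z^(k + 2 l)| ≤ b^k tr Z^(2 l)` -/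
theorem OpB.abs_trace_pow_le {Z : Matrix ι ι ℝ} (hZ : Z.IsSymm) {b : ℝ} (hb : 0 ≤ b)
    (h : OpB Z b) (k l : ℕ) :
    |(Z ^ (k + 2 * l)).trace| ≤ b ^ k * (Z ^ (2 * l)).trace := by
  have e : ∀ m : ℕ, ∀ a, (Z ^ (m + 2 * l)) a a
      = (Z ^ l *ᵥ (Pi.single a 1)) ⬝ᵥ (Z ^ m *ᵥ (Z ^ l *ᵥ (Pi.single a 1))) := by
    intro m a
    rw [entry_eq (Z ^ (m + 2 * l)) a a, symm_dot (IsSymm_pow hZ l), Matrix.mulVec_mulVec,
      Matrix.mulVec_mulVec, ← pow_add, ← pow_add]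
    congr 3
    ring
  have e0 : ∀ a, (Z ^ (2 * l)) a a
      = (Z ^ l *ᵥ (Pi.single a 1)) ⬝ᵥ ((Z ^ l *ᵥ (Pi.single a 1))) := by
    intro a
    have := e 0 a
    simpa using this
  simp only [Matrix.trace, Matrix.diag_apply]
  rw [Finset.mul_sum]
  refine (Finset.abs_sum_le_sum_abs _ _).trans (Finset.sum_le_sum fun a _ => ?_)
  rw [e k a, e0 a]
  exact (h.pow k).quad_le (pow_nonneg hb k) _

/-- `tr Z³ ^ 2 ≤ tr Z² · tr Z⁴` -/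
theorem trace_three_sq_le {Z : Matrix ι ι ℝ} (hZ : Z.IsSymm) :
    ((Z ^ 3).trace) ^ 2 ≤ (Z ^ 2).trace * (Z ^ 4).trace := by
  have h := trace_mul_sq_le Z (Z ^ 2)
  rw [frob_eq_trace_sq hZ, frob_pow_eq hZ 2, ← pow_succ'] at h
  exact h

/-- `tr Z^(k+l) ^ 2 ≤ tr Z^(2k) · tr Z^(2l)` -/
theorem trace_pow_sq_le {Z : Matrix ι ι ℝ} (hZ : Z.IsSymm) (k l : ℕ) :
    ((Z ^ (k + l)).trace) ^ 2 ≤ (Z ^ (2 * k)).trace * (Z ^ (2 * l)).trace := by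
  have h := trace_mul_sq_le (Z ^ k) (Z ^ l)
  rwa [frob_pow_eq hZ, frob_pow_eq hZ, ← pow_add] at h

/-- `tr Z⁶ ^ 2 ≤ (tr Z⁴) ^ 3` -/
theorem trace_six_sq_le {Z : Matrix ι ι ℝ} (hZ : Z.IsSymm) :
    ((Z ^ 6).trace) ^ 2 ≤ ((Z ^ 4).trace) ^ 3 := by
  have hT := trace_pow_even_nonneg hZ 2
  norm_num at hT
  set b : ℝ := √(√((Z ^ 4).trace)) with hbdef
  have hb : 0 ≤ b := Real.sqrt_nonneg _
  have hb2 : b ^ 2 = √((Z ^ 4).trace) := Real.sq_sqrt (Real.sqrt_nonneg _)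
  have hb4 : b ^ 4 = (Z ^ 4).trace := by
    calc b ^ 4 = (b ^ 2) ^ 2 := by ring
      _ = _ := by rw [hb2, Real.sq_sqrt hT]
  have h := (opB_of_trace_four hZ hb4.ge).abs_trace_pow_le hZ hb 2 2
  norm_num at h
  have h' : ((Z ^ 6).trace) ^ 2 ≤ (b ^ 2 * (Z ^ 4).trace) ^ 2 := by
    rw [← sq_abs]
    exact pow_le_pow_left₀ (abs_nonneg _) h 2
  calc _ ≤ _ := h'
    _ = b ^ 4 * ((Z ^ 4).trace) ^ 2 := by ring
    _ = _ := by rw [hb4]; ring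

/-- `∑_a ((Z^(k+2))_{aa})² ≤ b^(2k) ∑_a w_a²` -/
theorem OpB.sum_diag_sq_le {Z : Matrix ι ι ℝ} (hZ : Z.IsSymm) {b : ℝ} (hb : 0 ≤ b)
    (h : OpB Z b) (k : ℕ) :
    ∑ a, (Z ^ (k + 2)) a a ^ 2 ≤ b ^ (2 * k) * ∑ a, (Z ^ 2) a a ^ 2 := by
  rw [Finset.mul_sum]
  refine Finset.sum_le_sum fun a _ => ?_
  have := pow_le_pow_left₀ (abs_nonneg _) (h.pow_diag_le hZ hb k a) 2
  rw [sq_abs] at this
  calc _ ≤ _ := this
    _ = _ := by ring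

/-! ### sparse sets of pairs -/

/-- `∑_{(a,c) ∈ G} |(Z^(k+2))_{ac}| ≤ b^k ∑_a D_a w_a` if every row and every column of `G`
has at most `D` elements -/
theorem OpB.sum_sparse_le {Z : Matrix ι ι ℝ} (hZ : Z.IsSymm) {b : ℝ} (hb : 0 ≤ b)
    (h : OpB Z b) (k : ℕ) (G : Finset (ι × ι)) (D : ι → ℝ)
    (hr : ∀ a, (((Finset.univ.filter fun c => (a, c) ∈ G).card : ℕ) : ℝ) ≤ D a)
    (hc : ∀ c, (((Finset.univ.filter fun a => (a, c) ∈ G).card : ℕ) : ℝ) ≤ D c) :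
    ∑ p ∈ G, |(Z ^ (k + 2)) p.1 p.2| ≤ b ^ k * ∑ a, D a * (Z ^ 2) a a := by
  have h1 : ∑ p ∈ G, |(Z ^ (k + 2)) p.1 p.2|
      ≤ ∑ p ∈ G, b ^ k * (((Z ^ 2) p.1 p.1 + (Z ^ 2) p.2 p.2) / 2) :=
    Finset.sum_le_sum fun p _ => h.pow_apply_le' hZ hb k p.1 p.2
  refine h1.trans ?_
  rw [← Finset.mul_sum]
  refine mul_le_mul_of_nonneg_left ?_ (pow_nonneg hb k)
  have hsum : ∀ f : ι × ι → ℝ, ∑ p ∈ G, f p = ∑ a, ∑ c, if (a, c) ∈ G then f (a, c) else 0 := by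
    intro f
    rw [← Fintype.sum_prod_type (f := fun p : ι × ι => if p ∈ G then f p else 0)]
    rw [Finset.sum_ite_mem, Finset.univ_inter]
  have e1 : ∑ p ∈ G, (Z ^ 2) p.1 p.1 ≤ ∑ a, D a * (Z ^ 2) a a := by
    rw [hsum]
    refine Finset.sum_le_sum fun a _ => ?_
    rw [← Finset.sum_filter]
    change ∑ _x ∈ Finset.univ.filter (fun c => (a, c) ∈ G), (Z ^ 2) a a ≤ _
    rw [Finset.sum_const, nsmul_eq_mul]
    exact mul_le_mul_of_nonneg_right (hr a) (sq_diag_nonneg hZ a)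
  have e2 : ∑ p ∈ G, (Z ^ 2) p.2 p.2 ≤ ∑ a, D a * (Z ^ 2) a a := by
    rw [hsum, Finset.sum_comm]
    refine Finset.sum_le_sum fun c _ => ?_
    rw [← Finset.sum_filter]
    change ∑ _x ∈ Finset.univ.filter (fun a => (a, c) ∈ G), (Z ^ 2) c c ≤ _
    rw [Finset.sum_const, nsmul_eq_mul]
    exact mul_le_mul_of_nonneg_right (hc c) (sq_diag_nonneg hZ c)
  calc ∑ p ∈ G, ((Z ^ 2) p.1 p.1 + (Z ^ 2) p.2 p.2) / 2
      = (∑ p ∈ G, (Z ^ 2) p.1 p.1 + ∑ p ∈ G, (Z ^ 2) p.2 p.2) / 2 := by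
        rw [← Finset.sum_div, Finset.sum_add_distrib]
    _ ≤ _ := by linarith

/-- a row of a matrix has at most `t⁻² ∑_c M_{ac}²` entries of size `> t` -/
theorem card_heavy_le (M : Matrix ι ι ℝ) {t : ℝ} (ht : 0 < t) (a : ι) :
    (((Finset.univ.filter fun c => t < |M a c|).card : ℕ) : ℝ) ≤ (∑ c, M a c ^ 2) / t ^ 2 := by
  rw [le_div_iff₀ (by positivity)]
  calc (((Finset.univ.filter fun c => t < |M a c|).card : ℕ) : ℝ) * t ^ 2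
      = ∑ c ∈ Finset.univ.filter (fun c => t < |M a c|), t ^ 2 := by
        rw [Finset.sum_const, nsmul_eq_mul]
    _ ≤ ∑ c ∈ Finset.univ.filter (fun c => t < |M a c|), M a c ^ 2 := by
        refine Finset.sum_le_sum fun c hc => ?_
        rw [← sq_abs (M a c)]
        exact pow_le_pow_left₀ ht.le (Finset.mem_filter.1 hc).2.le 2
    _ ≤ ∑ c, M a c ^ 2 :=
        Finset.sum_le_sum_of_subset_of_nonneg (Finset.filter_subset _ _)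
          fun _ _ _ => sq_nonneg _

end Vale.Agent.P049.TS.Mat
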